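import Vale.Agent.P275DS.Cur
import Vale.Agent.P275RH.MkD

/-!
# P275, the word form of a family of representations of a free group
-/

set_option linter.unusedSectionVars false

open scoped Manifold ContDiff
open Matrix Vale.Agent.P272.K Vale.Agent.P275OM Vale.Agent.P275KU
open Vale.Agent.P275RH (cwd)

noncomputable section

namespace P275CW

section alg

variable {Ω Ω' : Type} [Ring Ω] [Algebra ℂ Ω] [Ring Ω'] [Algebra ℂ Ω'] {D : DG Ω} {D' : DG Ω'}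
  {n W Γ : Type} [Fintype n] [DecidableEq n] [Fintype W] [DecidableEq W] [Group Γ]
  {u : Γ →* Matrix n n Ω} {Ψ Ψ' : Γ → Ω} {g : ℕ}

theorem map_cwd {G : Type*} [Group G] (f : FreeGroup (Fin g × Bool) →* G) :
    f (cwd g) = cw fun k b => f (.of (k, b)) := by
  rw [cwd, map_list_prod, List.map_ofFn, cw]
  congr 2
  funext k
  simp [hd, commutatorElement_def]

theorem add_cwd {Θ : FreeGroup (Fin g × Bool) → Ω} (h : ∀ γ δ, Θ (γ⁻¹ * δ) = Θ γ⁻¹ + Θ δ) :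
    Θ (cwd g) = 0 :=
  (map_cwd (MonoidHom.mk' (fun γ => Multiplicative.ofAdd (Θ γ)) fun γ δ => by
    simpa [ofAdd_add] using congrArg Multiplicative.ofAdd (h γ⁻¹ δ))).trans (cw_comm _)

namespace DG

variable (D) in
/-- the logarithmic derivative -/
def lg (u : Γ →* Matrix n n Ω) (γ : Γ) : Matrix n n Ω := u γ * D.dm (u γ⁻¹)

variable (D) in
/-- `Ψ` is a primitive of the cocycle -/
def Ps (u : Γ →* Matrix n n Ω) (Ψ : Γ → Ω) : Prop :=
  ∀ γ δ, trace (D.lg u γ * D.lg u δ) = Ψ γ⁻¹ + Ψ δ - Ψ (γ⁻¹ * δ)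

theorem lg_mem (hu : ∀ γ, u γ ∈ D.M 0 n n) (γ : Γ) : D.lg u γ ∈ D.M 1 n n :=
  mm (hu _) (M.dm (hu _))

theorem Hom.lg {φ : Ω →ₐ[ℂ] Ω'} (hφ : D.Hom D' φ) {v : Γ →* Matrix n n Ω'}
    (h : ∀ γ, v γ = (u γ).map φ) (γ : Γ) : D'.lg v γ = (D.lg u γ).map φ := by
  rw [DG.lg, DG.lg, mp_mul, hφ.dm, h, h]

theorem Ps.map (h : D.Ps u Ψ) {φ : Ω →ₐ[ℂ] Ω'} (hφ : D.Hom D' φ) {v : Γ →* Matrix n n Ω'}
    (e : ∀ γ, v γ = (u γ).map φ) : D'.Ps v fun γ => φ (Ψ γ) := fun γ δ => by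
  rw [hφ.lg e, hφ.lg e, ← mp_mul, ← mp_tr, h, map_sub, map_add]

end DG

end alg

variable {d g : ℕ} {M J : Type} [TopologicalSpace M] [ChartedSpace (Cm d) M]
  [IsManifold 𝓘(ℂ, Cm d) ω M] [Fintype J] [DecidableEq J]
  (r : FreeGroup (Fin g × Bool) →* (Matrix J J (Sm d M))ˣ)

/-- the matrices of forms of degree zero -/
def uF : FreeGroup (Fin g × Bool) →* Matrix J J (Fr d M) := (dvF d M).u.comp r

/-- the lift to the central extension -/
def lF : FreeGroup (Fin g × Bool) →* Gh (dvF d M) J :=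
  FreeGroup.lift fun s => (dvF d M).σ (r (.of s))

/-- the word form -/
def Psi (γ : FreeGroup (Fin g × Bool)) : Fr d M := (lF r γ).a

theorem lF_g (γ : FreeGroup (Fin g × Bool)) : (lF r γ).g = r γ :=
  DFunLike.congr_fun (FreeGroup.ext_hom (Gh.π.comp (lF r)) r fun _ =>
    congrArg Gh.g FreeGroup.lift_apply_of) γ

theorem uF_apply (γ : FreeGroup (Fin g × Bool)) (a b : J) : uF r γ a b = fnH ((r γ).1 a b) := rfl

theorem uF_mem (γ : FreeGroup (Fin g × Bool)) : uF r γ ∈ (dgF d M).M 0 J J := fun a b =>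
  fn_Dg ((r γ).1 a b).2

theorem Psi_mul (γ δ : FreeGroup (Fin g × Bool)) : Psi r (γ * δ) = Psi r γ + Psi r δ +
    trace (uF r γ⁻¹ * (dgF d M).dm (uF r γ) * ((dgF d M).dm (uF r δ) * uF r δ⁻¹)) := by
  rw [Psi, map_mul, Gh.mul_a, lF_g, lF_g, Dv.c, Dv.L, Dv.Rr, ← map_inv, ← map_inv]
  rfl

theorem Psi_mem (γ : FreeGroup (Fin g × Bool)) : Psi r γ ∈ (dgF d M).G 2 := by
  induction γ using FreeGroup.induction_on with
  | C1 => rw [Psi, map_one]; exact zero_mem _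
  | of s => rw [Psi, lF, FreeGroup.lift_apply_of]; exact zero_mem _
  | inv_of s h => rw [Psi, map_inv]; exact neg_mem h
  | mul γ δ h h' =>
    rw [Psi_mul]
    exact add_mem (add_mem h h') (DG.M.tr (DG.mm (DG.mm (uF_mem r _) (DG.M.dm (uF_mem r _)))
      (DG.mm (DG.M.dm (uF_mem r _)) (uF_mem r _))))

theorem ps_Psi : (dgF d M).Ps (uF r) (Psi r) := fun γ δ => by
  rw [Psi_mul, inv_inv, DG.dm_inv (uF_mem r), Matrix.mul_neg, trace_neg, DG.lg, DG.lg]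
  abel

theorem Psi_cwd : Psi r (cwd g) = (cw fun k b => (dvF d M).σ (r (.of (k, b)))).a := by
  simp only [Psi, map_cwd, lF, FreeGroup.lift_apply_of]

theorem Psi_zpow {γ : FreeGroup (Fin g × Bool)} (h : r γ = 1) (m : ℤ) :
    Psi r (γ ^ m) = m • Psi r γ := by
  have : lF r γ = Gh.z (Psi r γ) := Gh.ext ((lF_g r γ).trans h) rfl
  rw [Psi, map_zpow, this]
  exact congrArg Gh.a (map_zpow (MonoidHom.mk' (fun a : Multiplicative (Fr d M) =>
    (Gh.z a.toAdd : Gh (dvF d M) J)) fun _ _ => (Gh.z_mul _ (Gh.z _)).symm) (.ofAdd (Psi r γ)) m).symm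

end P275CW
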