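import Vale.Agent.P275XB.Inst
import Vale.Agent.P275OM.Fm

/-!
# P275, the symplectic form on the character variety
-/

open Set
open P275BC (Ix)
open Vale.Agent Vale.Agent.P281Z.Hg Vale.Agent.P275MC Vale.Agent.P275OM Vale.Agent.P275XB
open Vale.Agent.P281Z (AnV)
open Vale.Agent.P275ST (Rep XB zeta dimR)

noncomputable section

namespace Vale.Agent.P275DS

variable {g n r : ℕ} {d : ℤ}

variable (g n d) in
/-- the tuples over a point of the character variety -/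
def LX (x : XB g n d) : Set (Ix n g → ℂ) := {y | ∃ ρ : Rep g n d, ix (ep ρ) = y ∧ ρ.pt = x}

theorem fb_X [Ok g (r + 1) d] : Fb (fun _ => zeta (r + 1) d) ⊤ (LX g (r + 1) d) :=
  .scalar (P275QV.gnc_root (prim g)) (fun _ _ ⟨ρ, e, _⟩ => e ▸ mem_range_ep.1 ⟨ρ, rfl⟩)
    fun _ _ ⟨ρ, e, k⟩ _ ⟨ρ', e', k'⟩ => by
      obtain ⟨P, h⟩ := ((pk g (r + 1) d).fib ρ ρ').1 (k.trans k'.symm)
      refine ⟨P, Units.ne_zero _, fun a b => ?_⟩
      rw [← e, ← e', mt_ix, mt_ix, h, cj, Matrix.mul_assoc, Units.inv_mul, Matrix.mul_one]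

theorem sc_X [Ok g n d] : Sc (2 * dimR g n) (LX g n d) := fun x => by
  obtain ⟨ρ, rfl⟩ : ∃ ρ : Rep g n d, ρ.pt = x := Quot.exists_rep x
  obtain ⟨s, -, h2, h3⟩ := (sbm_pt ρ).sec (hol_pt.at ρ)
  exact ⟨fun z => ix (ep (s z)), AnV.pi fun i => h2.hol ((reg_ep (i.1, i.2.1) _ _).hol _),
    h3.mono fun z k => ⟨_, rfl, k⟩⟩

theorem ex_om [Ok g (r + 1) d] : ∃ w : SF (2 * dimR g (r + 1)) (XB g (r + 1) d),
    IsOmg (LX g (r + 1) d) w ∧ w ∈ Dg _ _ 2 ∧ dd _ _ w = 0 := fb_X.exists sc_X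

end Vale.Agent.P275DS
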