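import Vale.Agent.P275CH.Sp

/-!
# P275, descent of curious hard Lefschetz: the package of spaces
-/

open P275BC (Ix Rt QP Orb qm wA)
open P275QV (Var)
open Vale.Agent.P275CH Vale.Agent.P275BW
open Vale.Agent.P275ST (Rep zeta)
open Vale.Agent.P275XB (Ok ix ep)

namespace Vale.Agent.P275DS

/-- **PKX**: the spaces between `X1` and the character variety -/
def PKX : Prop := ∀ (r g : ℕ) (d : ℤ) [Ok g (r + 1) d] (κ : Type) [Fintype κ]
  (q : κ → MvPolynomial (Ix (r + 1) g) ℂ) (d1 : ℕ)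
  (W1 : Var d1 (qm q '' Rt g fun _ => zeta (r + 1) d)), 0 < r →
  QP (Orb (wA r g)) (Rt g fun _ => zeta (r + 1) d) q →
  2 * d1 + 4 * g + r * (r + 5) = 4 * g * (r + 1) ^ 2 →
  ∃ (M : ℕ) (K : Pk M (vXB g (r + 1) d) (vr W1)), ∀ z, ∃ ρ : Rep g (r + 1) d,
    W1.ι (K.i z) = qm q (ix (ep ρ)) ∧ K.π (K.p (K.j z)) = ρ.pt

end Vale.Agent.P275DS
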