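import Vale.Agent.P275DS.Desc
import Vale.Agent.P275DS.Px
import Vale.Agent.P275DS.Om
import Vale.Agent.P275WB.Loc
import Vale.Agent.P275PU.Sh
import Vale.Agent.P275LF.Main
import Vale.Agent.P275QV.Qv

/-!
# P275, curious hard Lefschetz for the character variety
-/

open Set CategoryTheory
open P275BC (Ix Rt QP Orb qm wA)
open P275QV P275LF
open Vale.Agent Vale.Agent.P281Z.Hg Vale.Agent.P275MC Vale.Agent.P275OM Vale.Agent.P275XB
  Vale.Agent.P275CH Vale.Agent.P275AR Vale.Agent.P275BW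
open Vale.Agent.P275ST (Rep XB Cpt zeta dimR)
open Vale.Agent.P275Z (ChlH)
open Vale.Agent.P275WB (WH_eq jc chl_WT chlH_iff)

noncomputable section

namespace Vale.Agent.P275DS

theorem push : PUSH := fun _ _ U V f h w a ha => by
  obtain ⟨c, p, F, h1, h2⟩ := h.ext
  rw [WT, wt_ext h1]
  exact (WH_eq c w).le (P275PU.pb_WH (F := TopCat.ofHom ⟨F, h2.hol.cont⟩)
    (TopCat.ext fun x => (h2.eq x).symm) ((WH_eq V.cp w).ge ha))

variable {g r : ℕ} {d : ℤ} [Ok g (r + 1) d]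

theorem sub_LX {κ : Type} {q : κ → MvPolynomial (Ix (r + 1) g) ℂ}
    (hq : QP (Orb (wA r g)) (Rt g fun _ => zeta (r + 1) d) q) (ρ : Rep g (r + 1) d) :
    {y ∈ Rt g fun _ => zeta (r + 1) d | qm q y = qm q (ix (ep ρ))} ⊆ LX g (r + 1) d ρ.pt := by
  intro y h
  have k := mem_range_ep.1 (mem_range_self ρ)
  obtain ⟨P, Q, h1, h2⟩ := hq.sec y h.1
  obtain ⟨τ, e⟩ := h2 y h.1 h1
  obtain ⟨σ, e'⟩ := h2 _ (rz_sub k) (by rwa [← h.2])
  rw [← h.2, e] at e'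
  have e1 : y = P275BC.actW (wA r g) (τ⁻¹ * σ) (ix (ep ρ)) := by
    rw [← actW_mul, ← e', actW_mul, inv_mul_cancel, actW_one]
  obtain ⟨ρ', e2⟩ := (mem_range_ep (x := ix.symm y)).2 (by
    rw [ix.apply_symm_apply, e1]; exact stb_Rz _ _ _ k)
  refine ⟨ρ', by rw [e2, ix.apply_symm_apply], (((pk g (r + 1) d).fib ρ ρ').2
    ⟨dT (τ⁻¹ * σ), e2.trans (funext fun s => ?_)⟩).symm⟩
  rw [e1]
  exact mt_act _ _ s.1 s.2

/-- **curious hard Lefschetz for the class of the symplectic form** -/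
theorem chl_om (pkx : PKX) (hr : 0 < r) {w : SF (2 * dimR g (r + 1)) (XB g (r + 1) d)}
    (hw : IsOmg (LX g (r + 1) d) w) (h0 : dd _ _ w = 0) :
    CHL (LinearMap.mulLeft ℂ (cl 2 ⟨w, h0⟩)) (dimR g (r + 1)) (WT (cX g (r + 1) d)) := by
  have ht := gnc_root (prim (d := d) (n := r + 1) g)
  obtain ⟨N, q, hq⟩ := (qv r g).2
  replace hq := QP.mono hq (rt_con ht)
  obtain ⟨k, rfl⟩ := Nat.exists_eq_add_one_of_ne_zero (Ok.hg (r + 1) d : g ≠ 0)
  obtain ⟨s, hs⟩ := Nat.even_mul_succ_self r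
  have hd : 2 * (2 * k * (r * (r + 2)) + 3 * s) + 4 * (k + 1) + r * (r + 5) =
      4 * (k + 1) * (r + 1) ^ 2 := by linear_combination 3 * hs.symm
  have hR : dimR (k + 1) (r + 1) = k * (r * (r + 2)) := by
    rw [dimR, show (r + 1) ^ 2 - 1 = r * (r + 2) from Nat.sub_eq_of_eq_add (by ring),
      Nat.add_sub_cancel, mul_comm]
  obtain ⟨W⟩ := x1_var ht hq hd
  obtain ⟨v, hv, -, v0⟩ := (fb_x1 W ht hq).exists (sc_x1 W ht hq)
  obtain ⟨M, K, hK⟩ := pkx r _ d _ q _ W hr hq hd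
  have h1 := K.ai.hol
  have h2 := K.aπ.hol.comp (K.ap.hol.comp K.aj.hol)
  have e := hw.pb_eq fb_X sc_X h2 (hv.pb (fb_x1 W ht hq) (sc_x1 W ht hq) h1)
    ((sc_x1 W ht hq).pb h1) fun z => by
      obtain ⟨ρ, a, b⟩ := hK z
      rw [a]
      exact (sub_LX hq ρ).trans_eq (congrArg _ b.symm)
  refine desc K push P275WB.loc (cl_mem (M := XB _ _ d) 2 ⟨w, h0⟩) (cl_mem (M := W.X) 2 ⟨v, v0⟩) ?_ ?_
  · exact (cl_pb (smo_of_hol h1) 2 _).symm.trans ((congrArg (cl 2) (Subtype.ext e.symm)).trans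
      (cl_pb (smo_of_hol h2) 2 ⟨w, h0⟩))
  · have := chl_WT W.c (cl_mem 2 _) even_two (lef_x1 W ht hq hd v0 hv)
    have a := K.eF
    have b := K.eE
    have c := K.e1
    have e1 : M + 1 = s := by have := mul_assoc 2 k (r * (r + 2)); omega
    rw [show _ - _ = (dimR (k + 1) (r + 1) : ℤ) + (M + 1 : ℕ) by
      rw [hR, e1]
      zify at hs
      push_cast
      linear_combination (-1 : ℤ) * hs] at this
    exact this

theorem chl_xb (pkx : PKX) (hr : 0 < r) {w : SF (2 * dimR g (r + 1)) (XB g (r + 1) d)}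
    (hw : IsOmg (LX g (r + 1) d) w) (h0 : dd _ _ w = 0) (Y : Cpt g (r + 1) d) :
    ChlH Y (cl 2 ⟨w, h0⟩) := (chlH_iff Y _).2 (chl_om pkx hr hw h0)

end Vale.Agent.P275DS
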