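import Vale.Agent.P275DS.Asm

/-!
# P275, curious hard Lefschetz for the universal class
-/

open Vale.Agent Vale.Agent.P281Z.Hg Vale.Agent.P275MC Vale.Agent.P275OM Vale.Agent.P275XB
open Vale.Agent.P275ST (XB deg dimR)
open Vale.Agent.P275Z (Sit UP)
open Vale.Agent.P275WB (chlH_iff)

namespace Vale.Agent.P275DS

/-- **CMPB**: the universal class is a multiple of the class of the symplectic form -/
def CMPB (U : UP) : Prop := ∀ (S : Sit) (B : S.Brg) e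
  (w : SF (2 * dimR S.g S.n) (XB S.g S.n (deg S.D))) (h0 : dd _ _ w = 0), U S B.T e →
  IsOmg (LX S.g S.n (deg S.D)) w → ∃ c : ℂ, c ≠ 0 ∧ B.cls e = c • cl 2 ⟨w, h0⟩

theorem ex_chl (pkx : PKX) {g n : ℕ} {d : ℤ} [Ok g n d] (hn : 2 ≤ n) :
    ∃ (w : SF (2 * dimR g n) (XB g n d)) (h0 : dd _ _ w = 0), IsOmg (LX g n d) w ∧
      P275LF.CHL (LinearMap.mulLeft ℂ (cl 2 ⟨w, h0⟩)) (dimR g n) (P275CH.WT (cX g n d)) := by
  obtain ⟨r, rfl⟩ := Nat.exists_eq_add_one_of_ne_zero (show n ≠ 0 by omega)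
  obtain ⟨w, hw, -, h0⟩ := ex_om (g := g) (r := r) (d := d)
  exact ⟨w, h0, hw, chl_om pkx (by omega) hw h0⟩

/-- **CHL** -/
theorem chl_of {U : UP} (pkx : PKX) (cmp : CMPB U) : P275Z.CHL U := fun S B e Y hU => by
  obtain ⟨w, h0, hw, h⟩ := ex_chl (g := S.g) (d := deg S.D) pkx S.adm.hn
  obtain ⟨c, hc, k⟩ := cmp S B e w h0 hU hw
  rw [chlH_iff, k, show LinearMap.mulLeft ℂ (c • cl 2 ⟨w, h0⟩) =
    c • LinearMap.mulLeft ℂ (cl 2 ⟨w, h0⟩) from LinearMap.ext fun _ => smul_mul_assoc _ _ _]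
  exact h.smul hc

end Vale.Agent.P275DS
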