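import Vale.Agent.P275CW.Cwe

/-!
# P275, the curvature of an average of flat connections: the algebra
-/

set_option linter.unusedSectionVars false

open Matrix

namespace P275CW

variable {Ω Ω' : Type} [Ring Ω] [Algebra ℂ Ω] [Ring Ω'] [Algebra ℂ Ω'] {D : DG Ω} {D' : DG Ω'}
  {n κ Γ : Type} [Fintype n] [DecidableEq n] [Group Γ] {u : Γ →* Matrix n n Ω} {a : Matrix n n Ω}

namespace DG

variable (D) in
/-- the gauge transform of `a` -/
def gt (u : Γ →* Matrix n n Ω) (a : Matrix n n Ω) (γ : Γ) : Matrix n n Ω :=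
  u γ * D.dm (u γ⁻¹) + u γ * a * u γ⁻¹

variable (D) in
/-- the correction of the word form -/
def bt (u : Γ →* Matrix n n Ω) (a : Matrix n n Ω) (γ : Γ) : Ω :=
  trace (a * (u γ⁻¹ * D.dm (u γ))) + trace (a * (D.dm (u γ) * u γ⁻¹)) -
    trace (a * (u γ * a * u γ⁻¹))

theorem mm {i j : ℤ} {X Y : Matrix n n Ω} (h : X ∈ D.M i n n) (h' : Y ∈ D.M j n n) :
    X * Y ∈ D.M (i + j) n n := M.mul h h' rfl

theorem u_can (γ : Γ) (X : Matrix n n Ω) : u γ * (u γ⁻¹ * X) = X := by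
  rw [← Matrix.mul_assoc, ← map_mul, mul_inv_cancel, map_one, Matrix.one_mul]

theorem u_can' (γ : Γ) (X : Matrix n n Ω) : u γ⁻¹ * (u γ * X) = X := by
  rw [← Matrix.mul_assoc, ← map_mul, inv_mul_cancel, map_one, Matrix.one_mul]

variable (hu : ∀ γ, u γ ∈ D.M 0 n n) (ha : a ∈ D.M 1 n n)
include hu

theorem dm_inv (γ : Γ) : D.dm (u γ) * u γ⁻¹ = -(u γ * D.dm (u γ⁻¹)) := by
  rw [eq_neg_iff_add_eq_zero, ← dm_ev (hu γ) Even.zero, ← map_mul, mul_inv_cancel, map_one, dm_one]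

theorem tr_u (γ : Γ) {i : ℤ} {X : Matrix n n Ω} (h : X ∈ D.M i n n) :
    trace (u γ * X) = trace (X * u γ) := tr_ev (hu γ) h (by simp)

include ha

theorem gt_mem (γ : Γ) : D.gt u a γ ∈ D.M 1 n n :=
  add_mem (mm (hu _) (M.dm (hu _))) (mm (mm (hu _) ha) (hu _))

theorem bt_mem (γ : Γ) : D.bt u a γ ∈ D.G 2 :=
  sub_mem (add_mem (M.tr (mm ha (mm (hu _) (M.dm (hu _)))))
    (M.tr (mm ha (mm (M.dm (hu _)) (hu _))))) (M.tr (mm ha (mm (mm (hu _) ha) (hu _))))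

theorem tr_gt (γ : Γ) : trace (D.gt u a γ) = trace (u γ * D.dm (u γ⁻¹)) + trace a := by
  rw [gt, trace_add, Matrix.mul_assoc, tr_u hu γ (mm ha (hu _)), Matrix.mul_assoc, ← map_mul,
    inv_mul_cancel, map_one, Matrix.mul_one]

/-- the cocycle with a gauge form -/
theorem tr_gt_gt (γ δ : Γ) : trace (D.gt u a γ * D.gt u a δ) =
    trace (a * (D.dm (u γ⁻¹) * u γ)) + trace (a * (u δ⁻¹ * D.dm (u δ))) -
      (trace (u γ * D.dm (u γ⁻¹) * (D.dm (u δ) * u δ⁻¹)) + D.bt u a (γ⁻¹ * δ)) := by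
  have h1 := mm (hu γ) (M.dm (hu γ⁻¹))
  have h2 := mm (M.dm (hu δ)) (hu δ⁻¹)
  have e1 : trace (a * (u δ⁻¹ * (u γ * (D.dm (u γ⁻¹) * u δ)))) =
      -trace (u γ * (D.dm (u γ⁻¹) * (u δ * (a * u δ⁻¹)))) := by
    have := tr_od h1 (mm (mm (hu δ) ha) (hu δ⁻¹)) (by decide)
    simp only [Matrix.mul_assoc] at this
    rw [this, neg_neg, tr_u hu δ (mm ha (mm (hu _) h1))]
    simp only [Matrix.mul_assoc]
  have e2 : trace (a * (u γ⁻¹ * (D.dm (u δ) * (u δ⁻¹ * u γ)))) =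
      trace (u γ * (a * (u γ⁻¹ * (D.dm (u δ) * u δ⁻¹)))) := by
    rw [tr_u hu γ (mm ha (mm (hu _) h2))]
    simp only [Matrix.mul_assoc]
  have e3 : trace (a * (u γ⁻¹ * (u δ * (a * (u δ⁻¹ * u γ))))) =
      trace (u γ * (a * (u γ⁻¹ * (u δ * (a * u δ⁻¹))))) := by
    rw [tr_u hu γ (mm ha (mm (hu _) (mm (hu _) (mm ha (hu _)))))]
    simp only [Matrix.mul_assoc]
  rw [gt, gt, ← neg_neg (u δ * D.dm _), ← dm_inv hu δ, bt]
  simp only [_root_.mul_inv_rev, inv_inv, map_mul, dm_ev (hu _) Even.zero, Matrix.mul_add,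
    Matrix.add_mul, Matrix.mul_neg, trace_add, trace_neg, Matrix.mul_assoc, u_can, e1, e2, e3]
  abel

omit hu in
theorem cen {γ : Γ} {c : ℂ} (hc : c ≠ 0) (h : u γ = c • 1) :
    D.gt u a γ = a ∧ D.bt u a γ = 0 := by
  have e : u γ⁻¹ = c⁻¹ • 1 := by
    rw [eq_inv_smul_iff₀ hc, ← u_can (u := u) γ 1, h, Matrix.smul_mul, Matrix.one_mul,
      Matrix.mul_one]
  have e2 : u γ * a * u γ⁻¹ = a := by
    rw [h, e, Matrix.smul_mul, Matrix.mul_smul, smul_mul_assoc, smul_smul, inv_mul_cancel₀ hc]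
    simp
  rw [gt, bt, e2, h, e]
  simp [dm_one, eq_zero_of_eq_neg (tr_od ha ha (by decide))]

end DG

section cur

variable {φ : Ω →ₐ[ℂ] Ω'} (hφ : D.Hom D' φ)

variable (D D' φ) in
/-- the elements of degree at least `j` along the first factor -/
def Vf (j : ℤ) : Submodule ℂ Ω' :=
  Submodule.span ℂ {x | ∃ i k, ∃ s ∈ D'.G i, ∃ v ∈ D.G k, j ≤ k ∧ x = s * φ v}

theorem Vf.mk {i j k : ℤ} {s : Ω'} {v : Ω} (hs : s ∈ D'.G i) (hv : v ∈ D.G k) (h : j ≤ k) :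
    s * φ v ∈ Vf D D' φ j := Submodule.subset_span ⟨i, k, s, hs, v, hv, h, rfl⟩

include hφ in
theorem Vf.mul {i j k : ℤ} {x y : Ω'} (hx : x ∈ Vf D D' φ i) (hy : y ∈ Vf D D' φ j)
    (h : k ≤ i + j) : x * y ∈ Vf D D' φ k := by
  refine Submodule.map₂_le.1 (show Submodule.map₂ (LinearMap.mul ℂ Ω') _ _ ≤ Vf D D' φ k from ?_)
    x hx y hy
  rw [Vf, Vf, Submodule.map₂_span_span, Submodule.span_le]
  rintro _ ⟨_, ⟨i1, k1, s, hs, v, hv, a1, rfl⟩, _, ⟨i2, k2, t, ht, w, hw, a2, rfl⟩, rfl⟩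
  change s * φ v * (t * φ w) ∈ Vf D D' φ k
  rw [mul_assoc, ← mul_assoc (φ v), D'.cm (hφ.mem hv) ht, smul_mul_assoc, mul_smul_comm,
    mul_assoc, ← map_mul, ← mul_assoc, Units.smul_def]
  exact zsmul_mem (Vf.mk (D'.mul hs ht) (D.mul hv hw) (by omega)) _

theorem Vf.kill {z : Ω} (hz : ∀ i, 3 ≤ i → ∀ v ∈ D.G i, v * z = 0) {x : Ω'}
    (hx : x ∈ Vf D D' φ 3) : x * φ z = 0 := by
  refine Submodule.span_le.2
    (show _ ⊆ (LinearMap.ker (LinearMap.mulRight ℂ (φ z)) : Set Ω') from ?_) hx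
  rintro _ ⟨i, k, s, -, v, hv, h, rfl⟩
  change s * φ v * φ z = 0
  rw [mul_assoc, ← map_mul, hz k h v hv, map_zero, mul_zero]

variable [Fintype κ] {ψ : κ → Ω'} {B : κ → Matrix n n Ω} (hψ : ∀ k, ψ k ∈ D'.G 0)
  (hB : ∀ k, B k ∈ D.M 1 n n)
include hφ hψ hB

theorem cur_avg : ∃ Q : Matrix n n Ω', (∀ p q, Q p q ∈ Vf D D' φ 2) ∧
    D'.cur (∑ k, ψ k • (B k).map φ) = ∑ k, D'.d (ψ k) • (B k).map φ + Q := by
  have h : ∀ p q, (∑ k, ψ k • (B k).map φ) p q ∈ Vf D D' φ 1 := fun p q => by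
    rw [Matrix.sum_apply]
    exact sum_mem fun k _ => Vf.mk (hψ k) (hB k p q) le_rfl
  refine ⟨∑ k, ψ k • (D.dm (B k)).map φ + _ * _, fun p q => add_mem ?_
    (sum_mem fun r _ => Vf.mul hφ (h p r) (h r q) le_rfl), ?_⟩
  · rw [Matrix.sum_apply]
    exact sum_mem fun k _ => Vf.mk (hψ k) (DG.M.dm (hB k) p q) le_rfl
  · rw [DG.cur, ← add_assoc, map_sum, ← Finset.sum_add_distrib]
    congr 2
    funext k
    ext p q
    simpa [DG.dm_apply, hφ.d] using D'.lb (φ (B k p q)) (hψ k)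

/-- **the curvature of an average** -/
theorem cur_kill (h1 : ∑ k, ψ k = 1) {z : Ω} (hz : ∀ i, 3 ≤ i → ∀ v ∈ D.G i, v * z = 0)
    {t : Ω} (ht : ∀ k, trace (B k) = t) {Φ Φ' : κ → Ω} {Ψ : κ → κ → Ω}
    (hΨ : ∀ k l, trace (B k * B l) = Φ k + Φ' l - Ψ k l) {F : Matrix n n Ω'}
    (hF : F = D'.cur (∑ k, ψ k • (B k).map φ)) :
    trace (F * F) * φ z = ∑ k, ∑ l, D'.d (ψ k) * D'.d (ψ l) * φ (Ψ k l * z) ∧
      trace F * trace F * φ z = 0 := by
  obtain ⟨Q, hQ, e⟩ := cur_avg hφ hψ hB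
  have h0 : ∑ k, D'.d (ψ k) = 0 := by rw [← map_sum, h1, D'.d_one]
  have h : ∀ p q, (∑ k, D'.d (ψ k) • (B k).map φ) p q ∈ Vf D D' φ 1 := fun p q => by
    rw [Matrix.sum_apply]
    exact sum_mem fun k _ => Vf.mk (D'.dG (hψ k)) (hB k p q) le_rfl
  rw [hF, e]
  refine ⟨?_, ?_⟩
  · have k : ∀ {X Y : Matrix n n Ω'} {i j}, (∀ p q, X p q ∈ Vf D D' φ i) →
        (∀ p q, Y p q ∈ Vf D D' φ j) → 3 ≤ i + j → trace (X * Y) * φ z = 0 := fun a b c =>
      Vf.kill hz (sum_mem fun p _ => sum_mem fun q _ => Vf.mul hφ (a p q) (b q p) c)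
    have k2 : ∀ k l, trace (D'.d (ψ k) • (B k).map φ * D'.d (ψ l) • (B l).map φ) =
        -(D'.d (ψ k) * D'.d (ψ l) * φ (trace (B k * B l))) := fun k l => by
      simp only [trace, diag, mul_apply, map_sum, Finset.mul_sum, ← Finset.sum_neg_distrib,
        Matrix.smul_apply, map_apply, smul_eq_mul, map_mul]
      refine Finset.sum_congr rfl fun p _ => Finset.sum_congr rfl fun q _ => ?_
      rw [mul_assoc, ← mul_assoc (φ _), D'.cm (hφ.mem (hB k p q)) (D'.dG (hψ l))]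
      simp [mul_assoc]
    rw [Matrix.add_mul, Matrix.mul_add, Matrix.mul_add, trace_add, trace_add, trace_add, add_mul,
      add_mul, add_mul, k h hQ le_rfl, k hQ h le_rfl, k hQ hQ (by decide), Finset.sum_mul_sum]
    simp only [add_zero, trace_sum, k2, hΨ, map_sub, map_add, mul_sub, mul_add, neg_sub,
      Finset.sum_sub_distrib, Finset.sum_add_distrib]
    rw [Finset.sum_comm (f := fun k l => D'.d (ψ k) * D'.d (ψ l) * φ (Φ' l))]
    simp only [← Finset.sum_mul, ← Finset.mul_sum, h0, mul_zero, zero_mul, Finset.sum_const_zero,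
      add_zero, sub_zero]
    simp only [Finset.sum_mul, map_mul, mul_assoc]
  · have : trace (∑ k, D'.d (ψ k) • (B k).map φ) = 0 := by
      simp only [trace_sum, trace_smul, ← DG.mp_tr, ht, smul_eq_mul, ← Finset.sum_mul, h0, zero_mul]
    rw [trace_add, this, zero_add]
    exact Vf.kill hz (Vf.mul hφ (sum_mem fun p _ => hQ p p) (sum_mem fun p _ => hQ p p) (by decide))

end cur

end P275CW
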