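import Vale.Agent.P275CH.Defs
import Vale.Agent.P275WB.Main
import Vale.Agent.P275MC.Ex
import Vale.Agent.P275LE.Col
import Vale.Agent.P275AR.Dua

/-!
# P275, descent of curious hard Lefschetz: the algebra
-/

open scoped Manifold ContDiff
open Set Topology Function CategoryTheory
open Vale.Agent Vale.Agent.P272.K Vale.Agent.P281Z.Hg Vale.Agent.P275MC Vale.Agent.P275FM
  Vale.Agent.P275AR Vale.Agent.P275CH Vale.Agent.P275LO
open Vale.Agent.P281Z (HolM Emb Sbm sbm_id)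
open Vale.Agent.P275RG (Cp Alg)
open Vale.Agent.P275B (Mn Vr)
open P275S (H Hd c1 Nice commute_of_even mul_mem_Hd one_mem_Hd c1_mem)
open P275LF (CHL)

noncomputable section

namespace Vale.Agent.P275DS

section ring

variable {Y : Type} [TopologicalSpace Y] {a b u : HC Y} {m l : ℤ}

theorem pj_mul (hb : b ∈ HD Y l) (m : ℤ) (a : HC Y) : pj (m + l) (a * b) = pj m a * b :=
  pj_map (LinearMap.mulRight ℂ b) l (fun _ _ h => mul_mem_Hd rfl h hb) m a

theorem neg_zero' (h : m < 0) (ha : a ∈ HD Y m) : a = 0 := P275S.eq_zero_of_neg h ha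

theorem pow_HD (ha : a ∈ HD Y 2) (k : ℕ) : a ^ k ∈ HD Y (2 * k) := by
  induction k with
  | zero => exact one_mem_Hd
  | succ k ih => exact pow_succ a k ▸ mul_mem_Hd (by push_cast; ring) ih ha

theorem ex_inv (hu : u ∈ HD Y 0) (h : IsUnit u) : ∃ v ∈ HD Y 0, v * u = 1 := by
  obtain ⟨v, e⟩ := h.exists_left_inv
  exact ⟨_, pj_mem 0 v, by rw [← pj_mul hu, e, add_zero, pj_of_mem one_mem_Hd]⟩

end ring

section var

variable {n n' : ℕ} {U : Vr n} {V : Vr n'} {f : C(U.X, V.X)} {w w' m l : ℤ}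

instance : Nice (TopCat.of U.X) := nice (d := n)

theorem comm {a : HC U.X} (ha : a ∈ HD U.X m) (hm : Even m) (b : HC U.X) : a * b = b * a :=
  (commute_of_even ha hm b).eq

theorem WT_mul {a u : HC U.X} (ha : a ∈ WT U.cp w) (hu : u ∈ HD U.X 0) : a * u ∈ WT U.cp w :=
  mem_WT.2 fun x hx => (pd_mul a u x).trans
    (mem_WT.1 ha _ (P275LE.s2_hm U.cp (p := 0) hu hx))

theorem mul_WT {a u : HC U.X} (hu : u ∈ HD U.X 0) (ha : a ∈ WT U.cp w) : u * a ∈ WT U.cp w :=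
  comm hu Even.zero a ▸ WT_mul ha hu

/-- an algebraic open embedding is strict -/
theorem WT_str {V : Vr n} {f : C(U.X, V.X)} {S : Set V.X} (h : Alg U.cp V.cp f) (e : Emb n n f S)
    {b : HC V.X} (hb : pc f b ∈ WT U.cp w) : ∃ b' ∈ WT V.cp w, pc f b' = pc f b := by
  have g := grd_opn e h
  have k : ∀ a x, pd n U.X (pc f a) x = pd n V.X a _ := pd_ext (oe_of_emb e) (ori_of_emb e)
  obtain ⟨b', k'⟩ := (pd n V.X).surjective (pd n V.X b ∘ₗ
    (1 - ∑ q ∈ Finset.range ((n + n : ℕ) - w).toNat, wt V.cp q))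
  refine ⟨b', mem_WT.2 fun x hx => ?_, H_ext (d := n) fun x => ?_⟩
  · rw [k', LinearMap.comp_apply, LinearMap.sub_apply, LinearMap.sum_apply, (gr_wt _).sum_flt hx,
      Module.End.one_apply, sub_self, map_zero]
  · rw [k, k', LinearMap.comp_apply, LinearMap.sub_apply, LinearMap.sum_apply, map_sub,
      Module.End.one_apply, ← k, sub_eq_self, map_sum]
    refine Finset.sum_eq_zero fun q hq => ?_
    rw [g.comm (gr_wt _) (gr_wt _) (add_zero _).symm, ← k]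
    exact mem_WT.1 hb _ ((gr_wt _).w_flt (Finset.mem_range.1 hq) _)

theorem pc_WT (push : PUSH) (h : Alg U.cp V.cp f) {a : HC V.X} (ha : a ∈ WT V.cp w) :
    pc f a ∈ WT U.cp w := push _ _ _ _ _ h _ _ ha

variable (h : Alg U.cp V.cp f) (hp : IsProperMap f)

/-- the Gysin map of a proper algebraic map -/
def gy : HC U.X →ₗ[ℂ] HC V.X := gys (act_pb (smo_of_hol h.hol) hp)

theorem gy_mul (a : HC U.X) (b : HC V.X) : gy h hp (a * pc f b) = gy h hp a * b := gys_mul _ a b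

theorem gy_mem {a : HC U.X} (ha : a ∈ HD U.X m) (e : m + 2 * n' = l + 2 * n) :
    gy h hp a ∈ HD V.X l := gys_mem _ ha e

theorem gy_WT {a : HC U.X} (ha : a ∈ WT U.cp w) (e : w + 2 * n' ≤ w' + 2 * n) :
    gy h hp a ∈ WT V.cp w' :=
  P275WB.WT_of_low V.cp (pd_gys _) (grd_pb h hp _).low (by omega) ha

theorem pj_gy (e : m + 2 * n' = l + 2 * n) (a : HC U.X) : pj l (gy h hp a) = gy h hp (pj m a) := by
  have := pj_map (gy h hp) (2 * n' - 2 * n) (fun _ _ k => gy_mem h hp k (by omega)) m a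
  rwa [show m + (2 * n' - 2 * n) = l by omega] at this

end var

variable {d d1 M : ℕ} {X : Vr d} {X1 : Vr d1} (K : Pk M X X1) {w : ℤ}

/-- the hyperplane class -/
abbrev hy : HC K.P.X := c1 (X := TopCat.of K.P.X) K.Λ

theorem hy_mem : hy K ∈ HD K.P.X 2 := c1_mem _

theorem lhP : Bijective fun a : Fin (M + 2) → HC K.F.X => ∑ i, pc K.p (a i) * hy K ^ (i : ℕ) :=
  P275S.lh_pf P275S.lhp one_ne_zero (TopCat.ofHom K.p) K.pp K.Λ K.fP

theorem lhQ (y : HC K.Q.X) : ∃ a : Fin (M + 1) → HC K.F.X,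
    y = pc K.ι (∑ i, pc K.p (a i) * hy K ^ (i : ℕ)) := by
  obtain ⟨a, e⟩ := (P275S.lh_pf P275S.lhp one_ne_zero (TopCat.ofHom (K.p.comp K.ι))
    (K.pp.comp K.cι.isProperMap) _ K.fQ).2 y
  refine ⟨a, e.symm.trans ?_⟩
  simp only [map_sum, map_mul, map_pow, pc_comp]
  exact Finset.sum_congr rfl fun i _ =>
    congrArg (_ * · ^ _) (P275S.c1_pb (TopCat.ofHom K.ι) K.Λ)

theorem j_hy : pc K.j (hy K) = 0 :=
  (P275S.c1_pb (TopCat.ofHom K.j) K.Λ).symm.trans (P275S.c1_triv K.tj)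

theorem ker_j (a : HC K.P.X) : pc K.j a = 0 ↔ ∃ b, a = gy K.aι K.cι.isProperMap b :=
  gex_M _ K.cι (oe_of_emb K.ej) K.ej.rng (ori_of_emb K.ej) _ a

theorem ex_b : ∃ b ∈ HD K.F.X 0, ∀ x, hy K * x = gy K.aι K.cι.isProperMap (pc K.ι (pc K.p b * x)) := by
  obtain ⟨β, e⟩ := (ker_j K _).1 (j_hy K)
  obtain ⟨a, rfl⟩ := lhQ K β
  have e1 := K.eQ
  refine ⟨_, pj_mem 0 (a 0), fun x => ?_⟩
  rw [map_mul, gy_mul, ← pj_of_mem (hy_mem K), e, pj_gy _ _ (m := 0) (by omega)]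
  congr 2
  refine (P275S.pb_pr _ _ _).symm.trans (congrArg _ ?_)
  rw [Fin.sum_univ_succ, map_add, map_sum, Finset.sum_eq_zero fun i _ => ?_, add_zero, Fin.val_zero,
    pow_zero, mul_one]
  · exact (P275S.pb_pr _ _ _).symm
  · have := pj_mul (pow_HD (hy_mem K) i.succ) (-(2 * (i.succ : ℕ))) (pc K.p (a i.succ))
    rw [neg_add_cancel, neg_zero' (m := -(2 * (i.succ : ℕ))) (by simp) (pj_mem _ _), zero_mul] at this
    exact this

theorem key {a : Fin (M + 1) → HC K.F.X} {a' : HC K.F.X} (h : pc K.p a' =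
    gy K.aι K.cι.isProperMap (pc K.ι (∑ i, pc K.p (a i) * hy K ^ (i : ℕ)))) : a = 0 := by
  obtain ⟨b, hb, e⟩ := ex_b K
  have h1 : ∑ i, pc K.p (a i) * hy K ^ (i + 1 : ℕ) = pc K.p (a' * b) := by
    rw [map_mul, h, ← gy_mul, ← map_mul, ← comm (pc_mem _ hb) Even.zero, ← e,
      comm (hy_mem K) even_two, Finset.sum_mul]
    simp only [pow_succ, mul_assoc]
  have := (lhP K).1 (a₁ := Fin.cons (-(a' * b)) a) (a₂ := 0) (by
    simp only [Fin.sum_univ_succ (n := M + 1), Fin.cons_zero, Fin.cons_succ, Fin.val_succ, h1,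
      Pi.zero_apply, map_zero, zero_mul, Finset.sum_const_zero, map_neg, Fin.val_zero, pow_zero,
      mul_one, neg_add_cancel, add_zero])
  exact funext fun i => congrFun this i.succ

theorem j_sum (a : Fin (M + 2) → HC K.F.X) :
    pc K.j (∑ i, pc K.p (a i) * hy K ^ (i : ℕ)) = pc (K.p.comp K.j) (a 0) := by
  simp only [Fin.sum_univ_succ (n := M + 1), j_hy, pc_comp, map_add, map_sum, map_mul, map_pow,
    Fin.val_zero, pow_zero, mul_one, Fin.val_succ, pow_succ, mul_zero, Finset.sum_const_zero,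
    add_zero]

theorem f_bij : Bijective (pc (K.p.comp K.j)) := by
  refine ⟨(injective_iff_map_eq_zero _).2 fun a h => ?_, fun y => ?_⟩
  · obtain ⟨b, e⟩ := (ker_j K (pc K.p a)).1 ((pc_comp _ _ _).trans h)
    obtain ⟨c, rfl⟩ := lhQ K b
    rw [key K e] at e
    rw [← pc_id (K.p.comp K.σ) K.pσ a, ← pc_comp, e]
    simp
  · obtain ⟨z, rfl⟩ := (gex_V _ K.cι (oe_of_emb K.ej) K.ej.rng (ori_of_emb K.ej) y).1 (by
      have e := (gex_Z (smo_of_hol K.aι.hol) K.cι (oe_of_emb K.ej) K.ej.rng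
        (act_pb _ K.cι.isProperMap) _).2 ⟨y, rfl⟩
      obtain ⟨c, k⟩ := lhQ K (rsd (smo_of_hol K.aι.hol) K.cι (oe_of_emb K.ej) K.ej.rng y)
      rw [k] at e ⊢
      rw [key K (a' := 0) ((map_zero _).trans e.symm)]
      simp)
    obtain ⟨a, rfl⟩ := (lhP K).2 z
    exact ⟨a 0, (j_sum K a).symm⟩

variable (push : PUSH) (loc : LOC)
include push

theorem hy_WT (k : ℕ) {x : HC K.P.X} (hx : x ∈ WT K.P.cp w) :
    hy K ^ k * x ∈ WT K.P.cp (w + 2 * k) := by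
  obtain ⟨b, hb, e⟩ := ex_b K
  have e1 := K.eQ
  induction k with
  | zero => simpa using hx
  | succ k ih =>
    rw [pow_succ', mul_assoc, e]
    exact gy_WT _ _ (pc_WT push K.aι (mul_WT (pc_mem _ hb) ih)) (by push_cast; omega)

include loc

omit push in
theorem unit_p : IsUnit (gy K.ap K.pp (hy K ^ (M + 1))) := by
  refine loc _ (M + 1) _ K.F.toMn K.P.toMn K.p _ _ _ K.eE K.ap.hol K.pp
    (fun x => ⟨K.σ x, K.pσ x, .of_comp (K.ap.hol.at _) (K.hσ.at x)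
      ((sbm_id x).cng (.of_forall fun y => (K.pσ y).symm))⟩) (pow_HD (hy_mem K) _) fun x => ?_
  obtain ⟨Z, φ, h1, h2, h3⟩ := P275S.H_pfib (Z := TopCat.of K.P.X) one_ne_zero (K.fP x)
  refine ⟨Z, φ, h1, h2, fun z hz => ?_⟩
  obtain ⟨a, rfl⟩ := h3.2 z
  refine ⟨a (Fin.last _), (P275S.KG.pr_of_mem hz).symm.trans ?_⟩
  have k := fun i : ℕ => P275S.pb_mem φ (pow_HD (hy_mem K) i)
  beta_reduce
  rw [Fin.sum_univ_castSucc, map_add, map_sum, Finset.sum_eq_zero fun i _ => ?_, zero_add, map_smul]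
  · exact congrArg _ (P275S.KG.pr_of_mem (k _))
  · rw [map_smul, P275S.KG.pr_of_ne (k _) (by have := i.2; simp only [Fin.val_castSucc]; omega),
      smul_zero]

theorem coef_WT (a : ℕ → HC K.F.X) (k : ℕ) (hk : k ≤ M + 1)
    (h : ∑ i ∈ Finset.range (k + 1), pc K.p (a i) * hy K ^ i ∈ WT K.P.cp w) :
    a 0 ∈ WT K.F.cp w := by
  have e1 := K.eE
  obtain ⟨v, hv, e⟩ := ex_inv (gy_mem _ _ (pow_HD (hy_mem K) _) (by push_cast; omega))
    (unit_p K loc)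
  have c : ∀ i x, hy K ^ i * x = x * hy K ^ i := fun i =>
    comm (pow_HD (hy_mem K) i) (even_two_mul _)
  have top : ∀ k ≤ M + 1, ∑ i ∈ Finset.range (k + 1), pc K.p (a i) * hy K ^ i ∈ WT K.P.cp w →
      a k ∈ WT K.F.cp (w - 2 * k) := fun k hk h => by
    have h1 := mul_WT hv (gy_WT K.ap K.pp (hy_WT K push (M + 1 - k) h) (w' := w - 2 * k) (by omega))
    simp only [fun i => (c i (pc K.p (a i))).symm, Finset.mul_sum, ← mul_assoc, ← pow_add, map_sum,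
      gy_mul] at h1
    rwa [Finset.sum_range_succ, Finset.sum_eq_zero fun i hi => ?_, zero_add, Nat.sub_add_cancel hk,
      e, one_mul] at h1
    rw [neg_zero' (m := 2 * i - 2 * k) (by have := Finset.mem_range.1 hi; omega)
      (gy_mem _ _ (pow_HD (hy_mem K) _) (by omega)), mul_zero, zero_mul]
  induction k with
  | zero => simpa using top 0 hk h
  | succ k ih =>
    have h1 := hy_WT K push (k + 1) (pc_WT push K.ap (top _ hk h))
    rw [sub_add_cancel, c] at h1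
    rw [Finset.sum_range_succ] at h
    have h2 := sub_mem h h1
    rw [add_sub_cancel_right] at h2
    exact ih (by omega) h2

theorem f_str {a : HC K.F.X} (h : pc (K.p.comp K.j) a ∈ WT K.E.cp w) : a ∈ WT K.F.cp w := by
  rw [← pc_comp] at h
  obtain ⟨b, hb, e⟩ := WT_str K.aj K.ej h
  obtain ⟨c, rfl⟩ := (lhP K).2 b
  rw [pc_comp] at e
  replace e := (j_sum K c).symm.trans e
  rw [← (f_bij K).1 e]
  refine coef_WT K push loc (fun i => if k : i < M + 2 then c ⟨i, k⟩ else 0) (M + 1) le_rfl ?_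
  rw [Finset.sum_range]
  simpa using hb

omit push loc in
theorem ex_m : ∃ m ∈ HD K.E.X 0, K.Δ1 = gy K.ai K.ci.isProperMap m := by
  have e3 := K.e1
  obtain ⟨m, k⟩ : ∃ m, K.Δ1 = gy K.ai K.ci.isProperMap m := (gex_M (smo_of_hol K.ai.hol) K.ci
    (oe_val ⟨_, K.ci.isClosed_range.isOpen_compl⟩) Subtype.range_coe (ori_val _)
    (act_pb _ K.ci.isProperMap) K.Δ1).1 K.off
  exact ⟨_, pj_mem 0 m, by rw [← pj_gy _ _ (l := 2 * (M + 1 : ℕ)) (by omega), ← k, pj_of_mem K.g1]⟩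

/-- **descent of curious hard Lefschetz** -/
theorem desc {e : H ℂ (TopCat.of X.X)} {e1 : H ℂ (TopCat.of X1.X)} (he : e ∈ Hd ℂ _ 2)
    (he1 : e1 ∈ Hd ℂ _ 2) (hc : P275S.pb (TopCat.ofHom K.i) e1 =
      P275S.pb (TopCat.ofHom (K.π.comp (K.p.comp K.j))) e) {r : ℤ}
    (h : CHL (LinearMap.mulLeft ℂ e1) (r + (M + 1 : ℕ)) (WT X1.cp)) :
    CHL (LinearMap.mulLeft ℂ e) r (WT X.cp) := by
  have e2 := K.eF
  have e3 := K.e1
  obtain ⟨v, hv, hu⟩ := ex_inv (gy_mem K.aπ K.pπ K.gF (by omega))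
    (loc _ (M + 1) _ X.toMn K.F.toMn K.π _ _ _ K.eF K.aπ.hol K.pπ K.sbm K.gF K.spn)
  obtain ⟨m, hm, k⟩ := ex_m K
  obtain ⟨Ψ, h1, h2⟩ : ∃ Ψ : HC K.E.X →ₗ[ℂ] HC K.F.X, (∀ y, pc (K.p.comp K.j) (Ψ y) = y) ∧
      ∀ y, Ψ (pc (K.p.comp K.j) y) = y :=
    let Φ := LinearEquiv.ofBijective (pc (K.p.comp K.j)).toLinearMap (f_bij K)
    ⟨Φ.symm, Φ.apply_symm_apply, Φ.symm_apply_apply⟩
  have hΦ : ∀ a y, Ψ (pc (K.p.comp K.j) a * y) = a * Ψ y := fun a y => by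
    rw [← h1 y, ← map_mul, h2, h2]
  have hc' : pc K.i e1 = pc (K.p.comp K.j) (pc K.π e) := hc.trans (pc_comp _ _ _).symm
  have k1 : ∀ y, pc K.i (gy K.ai K.ci.isProperMap y) = pc K.i (gy K.ai K.ci.isProperMap 1) * y :=
    pb_gys K.ci _
  have k2 : pc K.i K.Δ1 = pc (K.p.comp K.j) K.ΔF := K.eq
  obtain ⟨G, hG⟩ : ∃ G : HC X.X →ₗ[ℂ] HC X1.X,
      ∀ x, G x = gy K.ai K.ci.isProperMap (m * pc (K.p.comp K.j) (pc K.π x)) :=
    ⟨gy K.ai K.ci.isProperMap ∘ₗ LinearMap.mulLeft ℂ m ∘ₗ (pc (K.p.comp K.j)).toLinearMap ∘ₗ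
      (pc K.π).toLinearMap, fun _ => rfl⟩
  obtain ⟨G', hG'⟩ : ∃ G' : HC X1.X →ₗ[ℂ] HC X.X, ∀ x, G' x = v * gy K.aπ K.pπ (Ψ (pc K.i x)) :=
    ⟨LinearMap.mulLeft ℂ v ∘ₗ gy K.aπ K.pπ ∘ₗ Ψ ∘ₗ (pc K.i).toLinearMap, fun _ => rfl⟩
  refine .retract (s := (M + 1 : ℕ)) (G := G) (G' := G') (fun a x hx => ?_) (fun a x hx => ?_)
    (fun x => ?_) (fun x => ?_) (fun x => ?_) h
  · have h3 := pc_WT push K.aj (pc_WT push K.ap (pc_WT push K.aπ hx))
    rw [pc_comp] at h3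
    rw [hG]
    exact gy_WT _ _ (mul_WT hm h3) (by omega)
  · have h3 := pc_WT push K.ai hx
    rw [← h1 (pc K.i x)] at h3
    rw [hG']
    exact mul_WT hv (gy_WT _ _ (f_str K push loc h3) (by omega))
  · rw [hG', hG, k1, ← mul_assoc, ← k1, ← k, k2, hΦ, h2, gy_mul, ← mul_assoc, hu, one_mul]
  · rw [hG, hG, LinearMap.mulLeft_apply, LinearMap.mulLeft_apply, comm he1 even_two, ← gy_mul, hc',
      comm he even_two, map_mul (pc K.π), map_mul (pc _), mul_assoc]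
  · rw [hG', hG', LinearMap.mulLeft_apply, LinearMap.mulLeft_apply, map_mul, hc', hΦ,
      comm (pc_mem _ he) even_two, gy_mul, comm he even_two, mul_assoc]

end Vale.Agent.P275DS
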