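import Vale.Agent.P275DS.Psi

/-!
# P275, the word form of the adjoint representation
-/

set_option linter.unusedSectionVars false

open Matrix Equiv Vale.Agent.P275OM
open Vale.Agent.P275RH (cwd)

namespace P275CW

theorem dv_prod {R A ι : Type*} [CommRing R] [Ring A] [DecidableEq ι] (D : Dv R A) (s : Finset ι)
    (f : ι → R) : D.d (∏ i ∈ s, f i) = ∑ i ∈ s, D.φ (∏ j ∈ s.erase i, f j) * D.d (f i) := by
  induction s using Finset.induction_on with
  | empty => simp [D.d_one]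
  | insert a s ha ih =>
    rw [Finset.prod_insert ha, D.lb, ih, Finset.sum_insert ha, Finset.erase_insert ha, add_comm,
      Finset.mul_sum]
    refine congrArg _ (Finset.sum_congr rfl fun i hi => ?_)
    rw [Finset.erase_insert_of_ne (ne_of_mem_of_not_mem hi ha).symm,
      Finset.prod_insert fun e => ha (Finset.mem_of_mem_erase e), map_mul, mul_assoc]

/-- the formula of Jacobi -/
theorem dv_det {R A n : Type*} [CommRing R] [Ring A] [Fintype n] [DecidableEq n] (D : Dv R A)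
    (f : Matrix n n R) : D.d f.det = trace (D.m f.adjugate * D.dm f) := by
  have h : ∀ i j, f.adjugate i j = ∑ σ : Perm n, Perm.sign σ •
      if σ i = j then ∏ k ∈ Finset.univ.erase i, f (σ k) k else 0 := fun i j => by
    rw [show f.adjugate i j = f.cramer (Pi.single j 1) i by simp [cramer_eq_adjugate_mulVec],
      cramer_apply, det_apply]
    refine Finset.sum_congr rfl fun σ _ => congrArg _ ?_
    rw [← Finset.mul_prod_erase _ _ (Finset.mem_univ i), updateCol_self, Pi.single_apply, ite_mul,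
      one_mul, zero_mul, Finset.prod_congr rfl fun k e => updateCol_ne (Finset.ne_of_mem_erase e)]
  simp only [det_apply, trace, diag, mul_apply, D.m_apply, D.dm_apply, h, map_sum, Units.smul_def,
    map_zsmul, dv_prod, Finset.sum_mul, smul_mul_assoc, Finset.smul_sum]
  rw [Finset.sum_comm]
  refine Finset.sum_congr rfl fun i _ => ?_
  rw [Finset.sum_comm]
  refine Finset.sum_congr rfl fun σ _ => ?_
  rw [Finset.sum_eq_single (σ i) (fun j _ e => by simp [e.symm]) (by simp), if_pos rfl]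

variable {Ω : Type} [Ring Ω] [Algebra ℂ Ω] {D : DG Ω} {n W : Type} [Fintype n] [DecidableEq n]
  [Fintype W] [DecidableEq W] {g : ℕ} {Ψ Ψ' : FreeGroup (Fin g × Bool) → Ω}

theorem tr_ad_od {X Y : Matrix n n Ω} (hX : X ∈ D.M 1 n n) (hY : Y ∈ D.M 1 n n)
    (h : trace X = 0) :
    trace ((Lm X - Rm X) * (Lm Y - Rm Y)) = (2 * Fintype.card n : ℂ) • trace (X * Y) := by
  have : trace (Rm X * Lm Y) = 0 := by
    simp only [trace, diag, Rm_Lm, Fintype.sum_prod_type, ← Finset.sum_mul, ← Finset.mul_sum]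
    rw [show ∑ i, X i i = 0 from h]
    simp
  simp only [Matrix.sub_mul, Matrix.mul_sub, Lm_Lm, Rm_Rm hX hY, mul_one, Int.negOnePow_one,
    Units.neg_smul, one_smul, trace_sub, trace_neg, tr_Lm, tr_Rm, tr_Lm_Rm, h, this, zero_mul,
    DG.tr_od hY hX (by decide), ← Nat.cast_smul_eq_nsmul ℂ]
  module

theorem DG.Ps.one {u : FreeGroup (Fin g × Bool) →* Matrix n n Ω} (k : D.Ps u Ψ) : Ψ 1 = 0 := by
  simpa [DG.lg, DG.dm_one] using (k 1 1).symm

open DG in
/-- **the adjoint representation in another frame** -/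
theorem DG.Ps.big {u : FreeGroup (Fin g × Bool) →* Matrix n n Ω}
    {U : FreeGroup (Fin g × Bool) →* Matrix (W ⊕ n × n) (W ⊕ n × n) Ω}
    (hu : ∀ γ, u γ ∈ D.M 0 n n) (hU : ∀ γ, U γ ∈ D.M 0 _ _) {h : Matrix (W ⊕ n × n) (W ⊕ n × n) Ω}
    (hh : h ∈ D.M 0 _ _) (e : h * h = 1)
    (eU : ∀ γ, U γ = h * fromBlocks 1 0 0 (Lm (u γ) * Rm (u γ⁻¹)) * h)
    (ht : ∀ γ, trace (D.lg u γ) = 0) (h1 : U (cwd g) = 1) (k : D.Ps u Ψ) (K : D.Ps U Ψ') :
    Ψ' (cwd g) = (2 * Fintype.card n : ℂ) • Ψ (cwd g) := by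
  have ha := mm hh (M.dm hh)
  have c1 : ∀ X : Matrix _ (W ⊕ n × n) Ω, h * (h * X) = X := fun X => by
    rw [← Matrix.mul_assoc, e, Matrix.one_mul]
  have e1 : D.dm h * h = -(h * D.dm h) := by
    rw [eq_neg_iff_add_eq_zero, ← dm_ev hh Even.zero, e, dm_one]
  have e2 : ∀ γ, h * (D.gt U (h * D.dm h) γ - h * D.dm h) * h =
      fromBlocks 0 0 0 (Lm (D.lg u γ) - Rm (D.lg u γ)) := fun γ => by
    have a := law_ad (A := 0) (c := 0) (hu γ⁻¹) (hu γ) (by simp [← map_mul]) (by simp [← map_mul])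
      (zero_mem _) (lg_mem hu γ) (zero_mem _) (by simp [lg, u_can'])
    have b : D.dm (h * U γ⁻¹ * h) = h * U γ⁻¹ * h *
        fromBlocks 0 0 0 (Lm (D.lg u γ) - Rm (D.lg u γ)) := by
      rw [eU, ← Matrix.mul_assoc, c1, Matrix.mul_assoc, e, Matrix.mul_one, fromBlocks_multiply,
        inv_inv, ← a]
      refine (fromBlocks_map _ _ _ _ D.d).trans ?_
      simp only [map_zero, sub_self, Matrix.zero_mul, Matrix.mul_zero, add_zero, zero_add,
        Matrix.map_zero _ (map_zero _)]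
      exact congrArg (fromBlocks · 0 0 _) dm_one
    have c := congrArg (h * U γ * h * ·) b
    simp only [dm_ev (hU _) Even.zero, dm_ev hh Even.zero, Matrix.mul_add,
      Matrix.mul_assoc, c1, u_can] at c
    simp only [← c, gt, Matrix.mul_add, Matrix.add_mul, Matrix.mul_sub, Matrix.sub_mul,
      Matrix.mul_assoc, c1, e1]
    abel
  have e3 : ∀ γ δ, trace ((D.gt U (h * D.dm h) γ - h * D.dm h) *
      (D.gt U (h * D.dm h) δ - h * D.dm h)) =
      (2 * Fintype.card n : ℂ) • trace (D.lg u γ * D.lg u δ) := fun γ δ => by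
    have k0 : ∀ X : Matrix (n × n) (n × n) Ω,
        trace X = trace (fromBlocks (0 : Matrix W W Ω) 0 0 X) := fun X => by
      simp [trace]
    rw [← tr_ad_od (lg_mem hu γ) (lg_mem hu δ) (ht γ), k0]
    have := congrArg₂ (fun X Y => trace (X * Y)) (e2 γ) (e2 δ)
    simp only [fromBlocks_multiply, Matrix.mul_zero, Matrix.zero_mul, add_zero, zero_add,
      Matrix.mul_assoc, c1] at this
    rw [← this, tr_ev hh (mm (sub_mem (gt_mem hU ha γ) ha)
      (mm (sub_mem (gt_mem hU ha δ) ha) hh)) (by simp)]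
    simp only [Matrix.mul_assoc, e, Matrix.mul_one]
  have b := fun γ e => (cen (u := U) ha (γ := γ) one_ne_zero e).2
  let Θ := fun γ => Ψ' γ + D.bt U (h * D.dm h) γ - (2 * Fintype.card n : ℂ) • Ψ γ
  obtain ⟨Φ, Φ', e4⟩ : ∃ Φ Φ' : _ → Ω, ∀ γ δ, Θ (γ⁻¹ * δ) = Φ γ + Φ' δ := by
    refine ⟨fun γ => Ψ' γ⁻¹ + trace (h * D.dm h * (D.dm (U γ⁻¹) * U γ)) -
      trace (D.gt U (h * D.dm h) γ * (h * D.dm h)) - (2 * Fintype.card n : ℂ) • Ψ γ⁻¹,
      fun δ => Ψ' δ + trace (h * D.dm h * (U δ⁻¹ * D.dm (U δ))) -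
      trace (h * D.dm h * D.gt U (h * D.dm h) δ) - (2 * Fintype.card n : ℂ) • Ψ δ, fun γ δ => ?_⟩
    have a := e3 γ δ
    rw [k, Matrix.sub_mul, Matrix.mul_sub, Matrix.mul_sub, trace_sub, trace_sub, trace_sub,
      tr_gt_gt hU ha, dm_inv hU δ, Matrix.mul_neg, trace_neg,
      show trace (U γ * _ * (U δ * D.dm (U δ⁻¹))) = _ from K γ δ, eq_zero_of_eq_neg (tr_od ha ha (by decide)),
      smul_sub, smul_add] at a
    rw [← sub_eq_zero, ← neg_eq_zero] at a ⊢
    rw [← neg_eq_zero, ← a]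
    simp only [Θ]
    abel
  have e5 : Θ 1 = 0 := by simp [Θ, k.one, K.one, b]
  have := add_cwd (Θ := Θ) fun γ δ => by
    have a := e4 γ 1
    have b := e4 1 δ
    have c := e4 1 1
    rw [inv_one, one_mul] at b c
    rw [mul_one] at a
    rw [e4, a, b, ← add_zero (Φ γ + Φ' δ), ← e5, c]
    abel
  simp only [Θ, b _ (h1.trans (one_smul _ _).symm), add_zero] at this
  exact sub_eq_zero.1 this

end P275CW
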