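import Vale.Agent.P275DS.Kil
import Vale.Agent.P275OM.Bg

/-!
# P275, the word form of the adjoint family is a multiple of the symplectic form
-/

open scoped Manifold ContDiff Topology
open Filter Set Matrix P275CW
open P275BC (Ix)
open Vale.Agent Vale.Agent.P272.K Vale.Agent.P275KU Vale.Agent.P275OM
open Vale.Agent.P281Z Vale.Agent.P281Z.Hg Vale.Agent.P281Z.Hg.G1H Vale.Agent.P281Z.Hg.G2H
  Vale.Agent.P281Z.Hg.Pb1H Vale.Agent.P275MC
open Vale.Agent.P275RH (cwd)
open Vale.Agent.P275ST (Rep XB dimR)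
open Vale.Agent.P275XB (ep ix Ok irr_ep mem_range_ep)
open Vale.Agent.P275Z (wv)

noncomputable section

namespace Vale.Agent.P275DS

variable {g n : ℕ}

theorem psi_vl {d : ℕ} {M : Type} [TopologicalSpace M] [ChartedSpace (Cm d) M]
    [IsManifold 𝓘(ℂ, Cm d) ω M] {s : M → Ix n g → ℂ}
    {X : Fin g → Bool → (Matrix (Fin n) (Fin n) (Sm d M))ˣ}
    (hX : ∀ k b a c, ((X k b).1 a c).1 = fun x => P275BC.mt (s x) k b a c) {e : Chart d M} {x : M}
    (h : At e x) : vl (Fr.sf (2 • (cw fun k b => (dvF d M).σ (X k b)).a)) e (e x) =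
      omF (fun z => s (e.symm z)) (e x) := by
  rw [← evH_one h, map_nsmul]
  refine (congrArg (· *ᵥ _) ((ptF h).ev_cw X (x := s x) (U := fun p =>
    P281Z.Hg.Dv p (fun z => s (e.symm z)) (e x)) (fun k b => ?_) fun p k b => ?_)).trans ?_
  · ext a c; exact (congrFun (hX k b a c) x).symm
  · ext a c
    change _ = P281Z.Hg.dr p (fun z => ((X k b).1 a c).1 (e.symm z)) (e x)
    rw [hX]; rfl
  · rw [omF, e.left_inv h.2]; rfl

variable {d : ℤ} [Ok g n d]

theorem psi_bg {w : SF (2 * dimR g n) (XB g n d)} (hw : IsOmg (LX g n d) w) :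
    Psi (bgS g n d) (cwd g) = (n : ℂ) • Fr.of w := by
  refine gq_ext fun x => ?_
  obtain ⟨ρ, h1, h2, h3⟩ := ex_lift x
  have hl : Lf (2 * dimR g n) (LX g n d) (fun y => ix (ep (ρ y))) x :=
    ⟨h2, h1.mono fun y k => ⟨_, rfl, k⟩⟩
  obtain ⟨t, t1, t2, t3⟩ := exists_glob (l := fun y => ix (ep (ρ y))) (hl.near.mono fun y hy e he =>
    ((hy.1 e he).contDiffAt (n := ∞)).restrict_scalars ℝ) (det_nhds fun k b =>
      (ρ x).1 (k, b) |>.det_ne_zero)
  choose X hX using fun k b => exists_unit (F := fun x => P275BC.mt (t x) k b) (fun a c => t1 _)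
    fun x => t2 x k b
  let R := FreeGroup.lift fun s : Fin g × Bool => X s.1 s.2
  have eR : ∀ᶠ y in 𝓝 x, ∀ γ, (R γ).1.map (Sm.ev y) = wv (ρ y).1 γ := t3.mono fun y hy γ =>
    DFunLike.congr_fun (FreeGroup.ext_hom
      ((Sm.ev y).mapMatrix.toMonoidHom.comp ((Units.coeHom _).comp R))
      (SpecialLinearGroup.coeMonoidHom.comp (FreeGroup.lift (ρ y).1)) fun s => by
        ext a c
        simp only [R, MonoidHom.comp_apply, FreeGroup.lift_apply_of]
        exact (congrFun (hX _ _ a c) y).trans (by rw [hy]; rfl)) γ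
  have e1 : ∀ γ, (uF R γ).map (gq x) = gM _ x fun y => wv (ρ y).1 γ := fun γ =>
    Matrix.ext fun a c => (gm_eq _ (eR.mono fun y hy => congrFun (congrFun (hy γ) a) c)).symm
  have s1 : ∀ γ, SaM (2 * dimR g n) x fun y => wv (ρ y).1 γ := fun γ a c =>
    ⟨(R γ).1 a c, eR.mono fun y hy => congrFun (congrFun (hy γ) a) c⟩
  have s2 := sa_hh h3 (irr_ep _)
  have s3 := fun γ => sa_blk (SaM.const (1 : Matrix (Fin (P275XB.NW (Fin g × Bool) n)) _ ℂ))
    (SaM.const 0) (SaM.const 0) (sa_adj (s1 γ) (P275RL.wv_det_ne _ _))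
  have k := DG.Ps.big (u := (gq x).mapMatrix.toMonoidHom.comp (uF R))
    (U := (gq x).mapMatrix.toMonoidHom.comp (uF (bgS g n d)))
    (fun γ => (hom_gq x).M (uF_mem _ γ)) (fun γ => (hom_gq x).M (uF_mem _ γ)) (gM_mem _)
    ((gM_mul_eq s2 s2 (.of_forall fun y => hh_sq (irr_ep _))).trans gM_one) (fun γ => ?_)
    (fun γ => ?_) (by simp only [uF, MonoidHom.comp_apply, bgS_cwd, map_one])
    ((ps_Psi R).map (hom_gq x) fun _ => rfl) ((ps_Psi _).map (hom_gq x) fun _ => rfl)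
  · have e2 : gq x (2 • Psi R (cwd g)) = gq x (Fr.of w) := gq_of_vl <| by
      filter_upwards [hl.near, t3.eventually_nhds] with y a b
      refine ⟨_, ca y, ?_⟩
      simp only [Psi_cwd, R, FreeGroup.lift_apply_of]
      exact (psi_vl hX (ca y)).trans ((omF_congr (ev_src (ca y) b)).trans
        (hw _ y a _ (ca y)).symm)
    rw [k, map_smul, ← e2, map_nsmul, ← Nat.cast_smul_eq_nsmul ℂ, smul_smul, Fintype.card_fin,
      mul_comm (n : ℂ), Nat.cast_ofNat]
  · have a : ∀ (W : Type) [DecidableEq W], gM (2 * dimR g n) x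
        (fun y => fromBlocks (1 : Matrix W W ℂ) 0 0 (P275CC.adj (wv (ρ y).1 γ))) = fromBlocks 1 0 0
          (Lm ((uF R γ).map (gq x)) * Rm ((uF R γ⁻¹).map (gq x))) := fun W _ => by
      ext (p | p) (q | q)
      · exact congrFun (congrFun gM_one p) q
      · exact gm_zero
      · exact gm_zero
      · rw [fromBlocks_apply₂₂, Lm_Rm, e1, e1]
        simp only [P275RL.wv_inv]
        exact gm_mul (s1 γ _ _) ((s1 γ).inv (P275RL.wv_det_ne _ _) _ _)
    refine Eq.trans ?_ (congrArg (_ * · * _) (a _))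
    rw [← gM_mul s2 (s3 γ), ← gM_mul (s2.mul (s3 γ)) s2]
    exact Matrix.ext fun p q => (gm_eq _ (h1.mono fun y hy =>
      congrArg (fun z => bg z γ p q) hy.symm)).symm
  · have a : (R γ⁻¹).1.adjugate = (R γ⁻¹).1.det • (R γ).1 := by
      rw [← Matrix.mul_one (adjugate _), ← (R γ).inv_mul, ← map_inv, ← Matrix.mul_assoc,
        adjugate_mul, smul_mul, Matrix.one_mul]
    have b : gq x (fnH (R γ⁻¹).1.det) = 1 := (gm_eq _ (eR.mono fun y hy =>
      ((Sm.ev y).map_det _).trans ((congrArg det (hy _)).trans (P275RL.wv_det _ _)))).symm.trans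
        gm_one
    have c := congrArg (gq x) (dv_det (dvF _ _) (R γ⁻¹).1)
    rw [(hom_gq x).lg (u := uF R) fun _ => rfl, ← DG.mp_tr]
    have c2 : (dvF _ _).m ((R γ⁻¹).1.det • (R γ).1) = fnH (R γ⁻¹).1.det • uF R γ :=
      Matrix.ext fun _ _ => map_mul fnH _ _
    rw [a, c2, smul_mul, trace_smul, smul_eq_mul, map_mul, b, one_mul] at c
    exact c.symm.trans (((hom_gq x).d _).trans ((congrArg _ b).trans (DG.d_one _)))

theorem omb : OMB := fun g n d _ _ hw => ⟨fun s => bgS g n d (.of s),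
  fun x _ => (bgS_ev _ x).symm, (Psi_cwd _).symm.trans (psi_bg hw)⟩

end Vale.Agent.P275DS
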